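import Mathlib

namespace Vale.Agent.Results.P039.QuadLinked

open Equiv

variable {V : Type*} [Fintype V] [DecidableEq V]

/-- The reflexive-transitive relation grows when a permutation is composed with a swap of two
elements lying in different cycles. -/
lemma sameCycle_mul_swap_pair (s : Perm V) (u w : V) (h : ¬ s.SameCycle u w) :
    (s * swap u w).SameCycle u w := by
  set t := s * swap u w with ht
  have h1 : t u = s w := by simp [ht]
  obtain ⟨n, hn⟩ := (show s.SameCycle (s w) w from ⟨-1, by simp⟩).exists_nat_pow_eq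
  have key : ∀ j, (∀ i, i < j → (s ^ i) (s w) ≠ w) → (t ^ j) (s w) = (s ^ j) (s w) := by
    intro j
    induction j with
    | zero => intro _; rfl
    | succ j ih =>
      intro hj
      have hw : (s ^ j) (s w) ≠ w := hj j (Nat.lt_succ_self j)
      have hu : (s ^ j) (s w) ≠ u := by
        intro he
        apply h
        have : s.SameCycle w ((s ^ j) (s w)) := ⟨(j + 1 : ℕ), by
          rw [zpow_natCast, pow_succ]; rfl⟩
        rw [he] at this
        exact this.symm
      have := ih (fun i hi => hj i (Nat.lt_succ_of_lt hi))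
      rw [pow_succ' t, pow_succ' s]
      change t ((t ^ j) (s w)) = s ((s ^ j) (s w))
      rw [this]
      simp [t, swap_apply_of_ne_of_ne hu hw]
  have hex : ∃ j, (s ^ j) (s w) = w := ⟨n, hn⟩
  have hfin := key (Nat.find hex) (fun i hi => Nat.find_min hex hi)
  rw [Nat.find_spec hex] at hfin
  refine Perm.SameCycle.trans (y := s w) ⟨1, by simpa using h1⟩ ⟨(Nat.find hex : ℕ), ?_⟩
  rw [zpow_natCast]; exact hfin

lemma sameCycle_mul_swap_mono (s : Perm V) (u w : V) (h : ¬ s.SameCycle u w) {x y : V}
    (hxy : s.SameCycle x y) : (s * swap u w).SameCycle x y := by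
  set t := s * swap u w with ht
  have huw : t.SameCycle u w := sameCycle_mul_swap_pair s u w h
  have hstep : ∀ z, t.SameCycle z (s z) := by
    intro z
    by_cases h1 : z = u
    · subst h1
      have : t w = s z := by simp [ht]
      exact huw.trans ⟨1, by simpa using this⟩
    · by_cases h2 : z = w
      · subst h2
        have : t u = s z := by simp [ht]
        exact huw.symm.trans ⟨1, by simpa using this⟩
      · refine ⟨1, ?_⟩
        simp [ht, swap_apply_of_ne_of_ne h1 h2]
  obtain ⟨n, rfl⟩ := hxy.exists_nat_pow_eq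
  induction n with
  | zero => exact Perm.SameCycle.refl t x
  | succ n ih =>
    rw [pow_succ', Perm.mul_apply]
    exact (ih ⟨n, by rw [zpow_natCast]⟩).trans (hstep _)

variable (a b c : V → V) (col : V → Bool)

/-- A successor permutation using `a` or `b` at one colour and `a` or `c` at the other colour. -/
def Valid (s : Perm V) : Prop :=
  ∀ x, if col x then (s x = a x ∨ s x = b x) else (s x = a x ∨ s x = c x)

theorem exists_spanning_perm (Zg Zb : V → Prop) (rk : V → ℕ)
    (hga : ∀ x, Zg x → Zg (a x) ∧ rk (a x) = rk x)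
    (hgb : ∀ x, Zg x → Zg (b x) ∧ rk (b x) = rk x)
    (hba : ∀ x, Zb x → Zb (a x) ∧ rk (a x) = rk x)
    (hbc' : ∀ x, Zb x → Zb (c x) ∧ rk (c x) = rk x)
    (hg : ∀ x y, Zg x → (Zg y ∨ Zb y) → rk y = rk x → Relation.EqvGen (fun p q =>
      q = b p ∨ q = c p ∨ (q = a p ∧ (Zg p ∨ Zb p) ∧ rk p < rk x)) x y → y = x ∨ y = b x)
    (hbz : ∀ x y, Zb x → (Zg y ∨ Zb y) → rk y = rk x → Relation.EqvGen (fun p q =>
      q = b p ∨ q = c p ∨ (q = a p ∧ (Zg p ∨ Zb p) ∧ rk p < rk x)) x y → y = x ∨ y = c x)
    (ha : ∀ x, a (a x) = x) (hb : ∀ x, b (b x) = x) (hc : ∀ x, c (c x) = x)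
    (hca : ∀ x, col (a x) = !col x) (hcb : ∀ x, col (b x) = !col x)
    (hcc : ∀ x, col (c x) = !col x) (hbc : ∀ x, b x ≠ c x)
    (hconn : ∀ x y, Relation.EqvGen (fun p q => q = b p ∨ q = c p ∨
      (q = a p ∧ (Zg p ∨ Zb p ∨ a (b p) = b (a p) ∨ a (c p) = c (a p)))) x y) :
    ∃ s : Perm V, Valid a b c col s ∧ ∀ x y, s.SameCycle x y := by
  classical
  -- in state `k` the faces of rank less than `k` are followed along `a`
  let f : ℕ → V → V := fun k x =>
    if col x then (if Zg x ∧ rk x < k then a x else b x)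
    else (if Zb x ∧ rk x < k then a x else c x)
  let g : ℕ → V → V := fun k x =>
    if col x then (if Zb x ∧ rk x < k then a x else c x)
    else (if Zg x ∧ rk x < k then a x else b x)
  have ig : ∀ k x, (Zg x ∧ rk x < k → Zg (a x) ∧ rk (a x) < k) ∧
      (¬ (Zg x ∧ rk x < k) → ¬ (Zg (b x) ∧ rk (b x) < k)) := by
    refine fun k x => ⟨fun h => ⟨(hga x h.1).1, (hga x h.1).2 ▸ h.2⟩, fun h h' => h ?_⟩
    have := hgb _ h'.1
    rw [hb] at this
    exact ⟨this.1, this.2 ▸ h'.2⟩
  have ib : ∀ k x, (Zb x ∧ rk x < k → Zb (a x) ∧ rk (a x) < k) ∧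
      (¬ (Zb x ∧ rk x < k) → ¬ (Zb (c x) ∧ rk (c x) < k)) := by
    refine fun k x => ⟨fun h => ⟨(hba x h.1).1, (hba x h.1).2 ▸ h.2⟩, fun h h' => h ?_⟩
    have := hbc' _ h'.1
    rw [hc] at this
    exact ⟨this.1, this.2 ▸ h'.2⟩
  have hgf : ∀ k x, g k (f k x) = x := by
    intro k x
    cases hx : col x
    · by_cases hz : Zb x ∧ rk x < k
      · simp [f, g, hx, hz, (ib k x).1 hz, hca, ha]
      · simp [f, g, hx, hz, (ib k x).2 hz, hcc, hc]
    · by_cases hz : Zg x ∧ rk x < k
      · simp [f, g, hx, hz, (ig k x).1 hz, hca, ha]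
      · simp [f, g, hx, hz, (ig k x).2 hz, hcb, hb]
  have hfg : ∀ k x, f k (g k x) = x := by
    intro k x
    cases hx : col x
    · by_cases hz : Zg x ∧ rk x < k
      · simp [f, g, hx, hz, (ig k x).1 hz, hca, ha]
      · simp [f, g, hx, hz, (ig k x).2 hz, hcb, hb]
    · by_cases hz : Zb x ∧ rk x < k
      · simp [f, g, hx, hz, (ib k x).1 hz, hca, ha]
      · simp [f, g, hx, hz, (ib k x).2 hz, hcc, hc]
  let st : ℕ → Perm V := fun k => ⟨f k, g k, hgf k, hfg k⟩
  have hst : ∀ k x, st k x = f k x := fun k x => rfl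
  have hf : ∀ k x, (st k).SameCycle x (f k x) := fun k x => ⟨1, by simp [hst]⟩
  have e0 : ∀ k z, Relation.EqvGen (fun p q =>
      q = b p ∨ q = c p ∨ (q = a p ∧ (Zg p ∨ Zb p) ∧ rk p < k)) z (st k z) := by
    intro k z
    apply Relation.EqvGen.rel
    rw [hst]
    cases hz : col z
    · by_cases h : Zb z ∧ rk z < k <;> simp [f, hz, h]
    · by_cases h : Zg z ∧ rk z < k <;> simp [f, hz, h]
  have hgrow : ∀ k x, (st (k + 1)).SameCycle x (f k x) := by
    intro k x
    by_cases heq : f (k + 1) x = f k x
    · rw [← heq]; exact hf (k + 1) x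
    -- here `x` changes, and no other vertex of its old cycle does
    have hloc : ∀ z, Relation.EqvGen (fun p q =>
        q = b p ∨ q = c p ∨ (q = a p ∧ (Zg p ∨ Zb p) ∧ rk p < k)) x z → z ≠ x →
        st (k + 1) z = st k z := by
      intro z hrel hne
      by_contra hch
      rw [hst, hst] at hch
      have changed : ∀ w, ¬ f (k + 1) w = f k w →
          rk w = k ∧ ((col w = true ∧ Zg w) ∨ (col w = false ∧ Zb w)) := by
        intro w hw
        cases hcw : col w
        · simp only [f, hcw, if_false, Bool.false_eq_true] at hw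
          by_cases h1 : Zb w ∧ rk w < k + 1 <;> by_cases h2 : Zb w ∧ rk w < k
          · rw [if_pos h1, if_pos h2] at hw; exact absurd rfl hw
          · exact ⟨by rcases h1 with ⟨h, h'⟩; by_contra; exact h2 ⟨h, by omega⟩,
              Or.inr ⟨rfl, h1.1⟩⟩
          · exact absurd ⟨h2.1, Nat.lt_succ_of_lt h2.2⟩ h1
          · rw [if_neg h1, if_neg h2] at hw; exact absurd rfl hw
        · simp only [f, hcw, if_true] at hw
          by_cases h1 : Zg w ∧ rk w < k + 1 <;> by_cases h2 : Zg w ∧ rk w < k
          · rw [if_pos h1, if_pos h2] at hw; exact absurd rfl hw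
          · exact ⟨by rcases h1 with ⟨h, h'⟩; by_contra; exact h2 ⟨h, by omega⟩,
              Or.inl ⟨rfl, h1.1⟩⟩
          · exact absurd ⟨h2.1, Nat.lt_succ_of_lt h2.2⟩ h1
          · rw [if_neg h1, if_neg h2] at hw; exact absurd rfl hw
      obtain ⟨hxk, hx⟩ := changed x heq
      obtain ⟨hzk, hz⟩ := changed z hch
      have hsym := Relation.EqvGen.symm _ _ hrel
      rcases hx with ⟨hcx, hx⟩ | ⟨hcx, hx⟩ <;> rcases hz with ⟨hcz, hz⟩ | ⟨hcz, hz⟩
      · rcases hg x z hx (Or.inl hz) (by omega) (by rw [hxk]; exact hrel) with h | h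
        · exact hne h
        · have := congrArg col h; simp [hcb, hcx, hcz] at this
      · rcases hg x z hx (Or.inr hz) (by omega) (by rw [hxk]; exact hrel) with h | h
        · exact hne h
        · rcases hbz z x hz (Or.inl hx) (by omega) (by rw [hzk]; exact hsym) with h2 | h2
          · exact hne h2.symm
          · apply hbc z
            rw [← h2, h, hb]
      · rcases hbz x z hx (Or.inl hz) (by omega) (by rw [hxk]; exact hrel) with h | h
        · exact hne h
        · rcases hg z x hz (Or.inr hx) (by omega) (by rw [hzk]; exact hsym) with h2 | h2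
          · exact hne h2.symm
          · apply hbc z
            rw [← h2, h, hc]
      · rcases hbz x z hx (Or.inr hz) (by omega) (by rw [hxk]; exact hrel) with h | h
        · exact hne h
        · have := congrArg col h; simp [hcc, hcx, hcz] at this
    obtain ⟨n, hn⟩ := (hf k x).symm.exists_nat_pow_eq
    have hex : ∃ i, (st k ^ i) (f k x) = x := ⟨n, hn⟩
    have hgen : ∀ i, Relation.EqvGen (fun p q =>
        q = b p ∨ q = c p ∨ (q = a p ∧ (Zg p ∨ Zb p) ∧ rk p < k)) x ((st k ^ i) (f k x)) := by
      intro i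
      induction i with
      | zero => exact e0 k x
      | succ i ih =>
        rw [pow_succ', Perm.mul_apply]
        exact Relation.EqvGen.trans _ _ _ ih (e0 k _)
    have key : ∀ i, i ≤ Nat.find hex → (st (k + 1) ^ i) (f k x) = (st k ^ i) (f k x) := by
      intro i
      induction i with
      | zero => intro _; rfl
      | succ i ih =>
        intro hi
        rw [pow_succ' (st (k + 1)), pow_succ' (st k), Perm.mul_apply, Perm.mul_apply,
          ih (by omega)]
        exact hloc _ (hgen i) (Nat.find_min hex (show i < Nat.find hex by omega))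
    have := key _ le_rfl
    rw [Nat.find_spec hex] at this
    exact (show (st (k + 1)).SameCycle (f k x) x from
      ⟨(Nat.find hex : ℕ), by rw [zpow_natCast]; exact this⟩).symm
  have hmono : ∀ k x y, (st k).SameCycle x y → (st (k + 1)).SameCycle x y := by
    intro k x y hxy
    obtain ⟨n, rfl⟩ := hxy.exists_nat_pow_eq
    clear hxy
    induction n with
    | zero => exact Perm.SameCycle.refl _ x
    | succ n ih =>
      rw [pow_succ', Perm.mul_apply]
      exact ih.trans (hgrow k _)
  have hbase : ∀ k x, (st k).SameCycle x (b x) ∧ (st k).SameCycle x (c x) := by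
    intro k
    induction k with
    | zero =>
      intro x
      have h1 := hf 0 x
      cases hx : col x
      · have h2 := hf 0 (b x)
        simp [f, hx, hcb, hb] at h1 h2
        exact ⟨h2.symm, h1⟩
      · have h2 := hf 0 (c x)
        simp [f, hx, hcc, hc] at h1 h2
        exact ⟨h1, h2.symm⟩
    | succ k ih => exact fun x => ⟨hmono k _ _ (ih x).1, hmono k _ _ (ih x).2⟩
  let Good : Perm V → Prop := fun s =>
    Valid a b c col s ∧ ∀ x, s.SameCycle x (b x) ∧ s.SameCycle x (c x) ∧
      (Zg x ∨ Zb x → s.SameCycle x (a x))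
  set M := Finset.univ.sup rk + 1 with hM
  have hlt : ∀ x, rk x < M := fun x =>
    Nat.lt_succ_of_le (Finset.le_sup (Finset.mem_univ x))
  have h0 : Good (st M) := by
    refine ⟨fun x => by
      cases hx : col x <;> by_cases hz : Zg x <;> by_cases hz' : Zb x <;>
        simp [hst, f, hx, hz, hz', hlt], fun x => ⟨(hbase M x).1, (hbase M x).2, ?_⟩⟩
    rintro (hz | hz)
    · cases hx : col x
      · have := hf M (a x)
        simp [f, hca, hx, ha, (hga x hz).1, hlt] at this
        exact this.symm
      · simpa [f, hx, hz, hlt] using hf M x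
    · cases hx : col x
      · simpa [f, hx, hz, hlt] using hf M x
      · have := hf M (a x)
        simp [f, hca, hx, ha, (hba x hz).1, hlt] at this
        exact this.symm
  let score : Perm V → ℕ := fun s =>
    (Finset.univ.filter (fun p : V × V => s.SameCycle p.1 p.2)).card
  obtain ⟨s, hs, hmax⟩ := Finset.exists_max_image (Finset.univ.filter Good) score
    ⟨st M, by simp [h0]⟩
  simp only [Finset.mem_filter, Finset.mem_univ, true_and] at hs hmax
  obtain ⟨hv, hab⟩ := hs
  -- two vertices whose successors may be exchanged share a cycle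
  have flip : ∀ (q : V → V) (u w : V),
      (∀ t, s u = t → t = a u ∨ t = q u) → (∀ t, s w = t → t = a w ∨ t = q w) →
      a w = q u → q w = a u →
      (∀ z, z = u ∨ z = w → ∀ t, t = a z ∨ t = q z →
        if col z then (t = a z ∨ t = b z) else (t = a z ∨ t = c z)) →
      s.SameCycle u w := by
    intro q u w hsu hsw h1 h2 hok
    by_contra hne
    have hgood : Good (s * swap u w) := by
      refine ⟨fun x => ?_, fun x => ⟨sameCycle_mul_swap_mono s u w hne (hab x).1,
        sameCycle_mul_swap_mono s u w hne (hab x).2.1,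
        fun hz => sameCycle_mul_swap_mono s u w hne ((hab x).2.2 hz)⟩⟩
      by_cases hxu : x = u
      · subst hxu
        rw [Perm.mul_apply, swap_apply_left]
        refine hok x (Or.inl rfl) _ ?_
        rcases hsw _ rfl with h | h
        · right; rw [h, h1]
        · left; rw [h, h2]
      · by_cases hxw : x = w
        · subst hxw
          rw [Perm.mul_apply, swap_apply_right]
          refine hok x (Or.inr rfl) _ ?_
          rcases hsu _ rfl with h | h
          · right; rw [h, h2]
          · left; rw [h, h1]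
        · simpa [Perm.mul_apply, swap_apply_of_ne_of_ne hxu hxw] using hv x
    have hle := hmax _ hgood
    have hlt : score s < score (s * swap u w) := by
      apply Finset.card_lt_card
      rw [Finset.ssubset_iff_of_subset]
      · exact ⟨(u, w), by simp [sameCycle_mul_swap_pair s u w hne], by simp [hne]⟩
      · intro p hp
        simp only [Finset.mem_filter, Finset.mem_univ, true_and] at hp ⊢
        exact sameCycle_mul_swap_mono s u w hne hp
    omega
  have quadG : ∀ u, col u = true → a (b u) = b (a u) → s.SameCycle u (a (b u)) := by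
    intro u hu hq
    have hw : col (a (b u)) = true := by simp [hca, hcb, hu]
    refine flip b u _ (fun t ht => ?_) (fun t ht => ?_) (ha (b u)) (by rw [hq, hb]) ?_
    · subst ht; simpa [hu] using hv u
    · subst ht; simpa [hw] using hv (a (b u))
    · rintro z (rfl | rfl) t ht <;> simpa [hu, hw] using ht
  have quadB : ∀ u, col u = false → a (c u) = c (a u) → s.SameCycle u (a (c u)) := by
    intro u hu hq
    have hw : col (a (c u)) = false := by simp [hca, hcc, hu]
    refine flip c u _ (fun t ht => ?_) (fun t ht => ?_) (ha (c u)) (by rw [hq, hc]) ?_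
    · subst ht; simpa [hu] using hv u
    · subst ht; simpa [hw] using hv (a (c u))
    · rintro z (rfl | rfl) t ht <;> simpa [hu, hw] using ht
  have hsg : ∀ u, a (b u) = b (a u) → s.SameCycle u (a u) := by
    intro u hq
    cases hu : col u
    · have hq' : a (b (b u)) = b (a (b u)) := by rw [hq, hb, hb]
      have h1 := quadG (b u) (by simp [hcb, hu]) hq'
      rw [hb] at h1
      exact (hab u).1.trans h1
    · have h1 := quadG u hu hq
      have h2 := (hab (a (b u))).1
      rw [hq, hb] at h2
      rw [hq] at h1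
      exact h1.trans h2
  have hsb : ∀ u, a (c u) = c (a u) → s.SameCycle u (a u) := by
    intro u hq
    cases hu : col u
    · have h1 := quadB u hu hq
      have h2 := (hab (a (c u))).2.1
      rw [hq, hc] at h2
      rw [hq] at h1
      exact h1.trans h2
    · have hq' : a (c (c u)) = c (a (c u)) := by rw [hq, hc, hc]
      have h1 := quadB (c u) (by simp [hcc, hu]) hq'
      rw [hc] at h1
      exact (hab u).2.1.trans h1
  refine ⟨s, hv, fun x y => ?_⟩
  induction hconn x y with
  | rel p q h =>
    rcases h with rfl | rfl | ⟨rfl, hz | hz | hq | hq⟩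
    exacts [(hab p).1, (hab p).2.1, (hab p).2.2 (Or.inl hz), (hab p).2.2 (Or.inr hz),
      hsg p hq, hsb p hq]
  | refl p => exact Perm.SameCycle.refl s p
  | symm p q _ ih => exact ih.symm
  | trans p q r _ _ i1 i2 => exact i1.trans i2

/-- The walk that follows a successor permutation for `n` steps. -/
def orbitWalk (G : SimpleGraph V) (s : Perm V) (hs : ∀ x, G.Adj x (s x)) :
    (n : ℕ) → (v : V) → G.Walk v ((s ^ n) v)
  | 0, _ => .nil
  | n + 1, v => (SimpleGraph.Walk.cons (hs v) (orbitWalk G s hs n (s v))).copy rfl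
      (by rw [pow_succ]; rfl)

omit [Fintype V] [DecidableEq V] in
lemma orbitWalk_support (G : SimpleGraph V) (s : Perm V) (hs : ∀ x, G.Adj x (s x)) :
    ∀ n v, (orbitWalk G s hs n v).support = (List.range (n + 1)).map (fun i => (s ^ i) v) := by
  intro n
  induction n with
  | zero => intro v; rfl
  | succ n ih =>
    intro v
    rw [List.range_succ_eq_map, List.map_cons, List.map_map]
    simp only [orbitWalk, SimpleGraph.Walk.support_copy, SimpleGraph.Walk.support_cons, ih]
    simp [Function.comp_def, pow_succ, Perm.mul_apply]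

theorem hamiltonian_of_linked {V : Type*} [Fintype V] [DecidableEq V] [Nonempty V]
    (a b c : V → V) (col : V → Bool) (Zg Zb : V → Prop)
    (rk : V → ℕ)
    (hga : ∀ x, Zg x → Zg (a x) ∧ rk (a x) = rk x)
    (hgb : ∀ x, Zg x → Zg (b x) ∧ rk (b x) = rk x)
    (hba : ∀ x, Zb x → Zb (a x) ∧ rk (a x) = rk x)
    (hbc' : ∀ x, Zb x → Zb (c x) ∧ rk (c x) = rk x)
    (hg : ∀ x y, Zg x → (Zg y ∨ Zb y) → rk y = rk x → Relation.EqvGen (fun p q =>
      q = b p ∨ q = c p ∨ (q = a p ∧ (Zg p ∨ Zb p) ∧ rk p < rk x)) x y → y = x ∨ y = b x)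
    (hbz : ∀ x y, Zb x → (Zg y ∨ Zb y) → rk y = rk x → Relation.EqvGen (fun p q =>
      q = b p ∨ q = c p ∨ (q = a p ∧ (Zg p ∨ Zb p) ∧ rk p < rk x)) x y → y = x ∨ y = c x)
    (ha : ∀ x, a (a x) = x) (hb : ∀ x, b (b x) = x) (hc : ∀ x, c (c x) = x)
    (hca : ∀ x, col (a x) = !col x) (hcb : ∀ x, col (b x) = !col x)
    (hcc : ∀ x, col (c x) = !col x)
    (hd : ∀ x, a x ≠ b x ∧ a x ≠ c x ∧ b x ≠ c x)
    (hconn : ∀ x y, Relation.EqvGen (fun p q => q = b p ∨ q = c p ∨
      (q = a p ∧ (Zg p ∨ Zb p ∨ a (b p) = b (a p) ∨ a (c p) = c (a p)))) x y) :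
    (SimpleGraph.fromRel (fun p q => q = a p ∨ q = b p ∨ q = c p)).IsHamiltonian := by
  classical
  obtain ⟨s, hv, hall⟩ :=
    exists_spanning_perm a b c col Zg Zb rk hga hgb hba hbc' hg hbz ha hb hc hca hcb hcc (fun x => (hd x).2.2) hconn
  set G := SimpleGraph.fromRel (fun p q => q = a p ∨ q = b p ∨ q = c p) with hG
  have hadj : ∀ x, G.Adj x (s x) := by
    intro x
    have hx := hv x
    have hne : s x ≠ x := by
      intro he
      cases hxc : col x
      · simp only [hxc, if_false, Bool.false_eq_true, he] at hx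
        rcases hx with h | h
        · have := hca x; rw [← h, hxc] at this; simp at this
        · have := hcc x; rw [← h, hxc] at this; simp at this
      · simp only [hxc, if_true, he] at hx
        rcases hx with h | h
        · have := hca x; rw [← h, hxc] at this; simp at this
        · have := hcb x; rw [← h, hxc] at this; simp at this
    rw [hG, SimpleGraph.fromRel_adj]
    refine ⟨hne.symm, Or.inl ?_⟩
    cases hxc : col x
    · simp only [hxc, if_false, Bool.false_eq_true] at hx; tauto
    · simp only [hxc, if_true] at hx; tauto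
  let v : V := Classical.arbitrary V
  have hper : v ∈ Function.periodicPts s := s.injective.mem_periodicPts v
  set N := Function.minimalPeriod s v with hNdef
  have hN : 0 < N := Function.minimalPeriod_pos_of_mem_periodicPts hper
  have hit : ∀ i, (s ^ i) v = s^[i] v := fun i => by rw [Perm.coe_pow]
  have hinj : ∀ i j, i < N → j < N → (s ^ i) v = (s ^ j) v → i = j := by
    intro i j hi hj he
    rw [hit, hit] at he
    exact (Function.iterate_eq_iterate_iff_of_lt_minimalPeriod hi hj).1 he
  have hclosed : (s ^ N) v = v := by rw [hit]; exact Function.iterate_minimalPeriod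
  have hmem : ∀ y, ∃ i, i < N ∧ (s ^ i) v = y := by
    intro y
    obtain ⟨n, hn⟩ := (hall v y).exists_nat_pow_eq
    refine ⟨n % N, Nat.mod_lt _ hN, ?_⟩
    rw [hit, Function.iterate_mod_minimalPeriod_eq, ← hit, hn]
  have hnd : (((List.range N).map (fun i => (s ^ i) (s v)))).Nodup := by
    refine List.Nodup.map_on (fun i hi j hj he => ?_) List.nodup_range
    have : s ((s ^ i) v) = s ((s ^ j) v) := by
      rw [← Perm.mul_apply, ← Perm.mul_apply, ← pow_succ', ← pow_succ', pow_succ, pow_succ]
      exact he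
    exact hinj i j (List.mem_range.1 hi) (List.mem_range.1 hj) (s.injective this)
  have h3 : 3 ≤ Fintype.card V := by
    have : ({a v, b v, c v} : Finset V).card = 3 :=
      Finset.card_eq_three.2 ⟨a v, b v, c v, (hd v).1, (hd v).2.1, (hd v).2.2, rfl⟩
    exact this ▸ Finset.card_le_univ _
  have hNcard : N = Fintype.card V := by
    have hb' : Function.Bijective (fun i : Fin N => (s ^ (i : ℕ)) v) := by
      refine ⟨fun i j h => Fin.ext (hinj i j i.2 j.2 h), fun y => ?_⟩
      obtain ⟨i, hi, he⟩ := hmem y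
      exact ⟨⟨i, hi⟩, he⟩
    simpa using Fintype.card_of_bijective hb'
  obtain ⟨M, hM⟩ : ∃ M, N = M + 1 := ⟨N - 1, by omega⟩
  intro _
  let q := orbitWalk G s hadj M (s v)
  have hend : (s ^ M) (s v) = v := by
    rw [← Perm.mul_apply, ← pow_succ, ← hM, hclosed]
  let p : G.Walk v v := SimpleGraph.Walk.cons (hadj v) (q.copy rfl hend)
  have hsup : p.support.tail = (List.range N).map (fun i => (s ^ i) (s v)) := by
    simp [p, q, orbitWalk_support, hM]
  have hcount : p.support.tail.length = N := by rw [hsup]; simp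
  have hlen : p.length = N := by
    have := SimpleGraph.Walk.length_support p
    have h2 : p.support.tail.length = p.support.length - 1 := List.length_tail
    omega
  refine ⟨v, p, SimpleGraph.Walk.isHamiltonianCycle_iff_isCycle_and_length_eq.2
    ⟨SimpleGraph.Walk.isCycle_iff_isPath_tail_and_le_length.2 ⟨?_, by omega⟩, by omega⟩⟩
  rw [SimpleGraph.Walk.isPath_def, SimpleGraph.Walk.support_tail_of_not_nil _ (by simp [p]), hsup]
  exact hnd

/-- One edge of a face cannot be the only one leaving a set closed along the rest of the face. -/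
lemma no_single_exit {V : Type*} [Finite V] (a b : V → V) (col : V → Bool)
    (ha : ∀ x, a (a x) = x) (hb : ∀ x, b (b x) = x)
    (hca : ∀ x, col (a x) = !col x) (hcb : ∀ x, col (b x) = !col x)
    (P : V → Prop) (hPb : ∀ x, P (b x) ↔ P x) (x : V)
    (h : ∀ y, ¬ (P (a y) ↔ P y) → Relation.EqvGen (fun p q => q = a p ∨ q = b p) x y →
      y = x ∨ y = a x) :
    P (a x) ↔ P x := by
  classical
  let t : Perm V := ⟨fun z => a (b z), fun z => b (a z), fun z => by simp [ha, hb],
    fun z => by simp [ha, hb]⟩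
  have h1 : t.SameCycle (b x) (a x) := ⟨1, by simp [t, hb]⟩
  obtain ⟨n, hn⟩ := h1.symm.exists_nat_pow_eq
  have hex : ∃ k, b ((t ^ k) (a x)) = x := ⟨n, by rw [hn, hb]⟩
  have key : ∀ k, k ≤ Nat.find hex → (P ((t ^ k) (a x)) ↔ P (a x)) ∧
      col ((t ^ k) (a x)) = col (a x) ∧
      Relation.EqvGen (fun p q => q = a p ∨ q = b p) x ((t ^ k) (a x)) := by
    intro k
    induction k with
    | zero => intro _; exact ⟨Iff.rfl, rfl, Relation.EqvGen.rel _ _ (Or.inl rfl)⟩
    | succ k ih =>
      intro hk
      obtain ⟨i1, i2, i3⟩ := ih (by omega)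
      rw [pow_succ', Perm.mul_apply]
      set z := (t ^ k) (a x) with hz
      have htz : t z = a (b z) := rfl
      have hgen : Relation.EqvGen (fun p q => q = a p ∨ q = b p) x (b z) :=
        Relation.EqvGen.trans _ _ _ i3 (Relation.EqvGen.rel _ _ (Or.inr rfl))
      refine ⟨?_, by simp [htz, hca, hcb, i2], ?_⟩
      · rw [htz]
        by_cases hy : P (a (b z)) ↔ P (b z)
        · rw [hy, hPb, i1]
        · exfalso
          rcases h (b z) hy hgen with e | e
          · exact Nat.find_min hex (show k < Nat.find hex by omega) e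
          · have := congrArg col e
            simp [hcb, i2] at this
      · rw [htz]
        exact Relation.EqvGen.trans _ _ _ hgen (Relation.EqvGen.rel _ _ (Or.inl rfl))
  obtain ⟨i1, -, -⟩ := key _ le_rfl
  rw [← hPb ((t ^ Nat.find hex) (a x)), Nat.find_spec hex] at i1
  exact i1.symm

/-- A Hamiltonian cycle exists when the adjacency graph of the faces of two colours, without
quadrilaterals and without a chosen set of separated faces, is a forest. -/
theorem result {V : Type*} [Fintype V] [DecidableEq V] [Nonempty V]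
    (a b c : V → V) (col : V → Bool) (Zg Zb : V → Prop)
    (rk : V → ℕ)
    (hga : ∀ x, Zg x → Zg (a x) ∧ rk (a x) = rk x)
    (hgb : ∀ x, Zg x → Zg (b x) ∧ rk (b x) = rk x)
    (hba : ∀ x, Zb x → Zb (a x) ∧ rk (a x) = rk x)
    (hbc' : ∀ x, Zb x → Zb (c x) ∧ rk (c x) = rk x)
    (hg : ∀ x y, Zg x → (Zg y ∨ Zb y) → rk y = rk x → Relation.EqvGen (fun p q =>
      q = b p ∨ q = c p ∨ (q = a p ∧ (Zg p ∨ Zb p) ∧ rk p < rk x)) x y → y = x ∨ y = b x)
    (hbz : ∀ x y, Zb x → (Zg y ∨ Zb y) → rk y = rk x → Relation.EqvGen (fun p q =>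
      q = b p ∨ q = c p ∨ (q = a p ∧ (Zg p ∨ Zb p) ∧ rk p < rk x)) x y → y = x ∨ y = c x)
    (ha : ∀ x, a (a x) = x) (hb : ∀ x, b (b x) = x) (hc : ∀ x, c (c x) = x)
    (hca : ∀ x, col (a x) = !col x) (hcb : ∀ x, col (b x) = !col x)
    (hcc : ∀ x, col (c x) = !col x)
    (hd : ∀ x, a x ≠ b x ∧ a x ≠ c x ∧ b x ≠ c x)
    (hcon : ∀ x y, Relation.EqvGen (fun p q => q = a p ∨ q = b p ∨ q = c p) x y)
    (hforest : ∀ K : Set V, K.Nonempty →
      (∀ x ∈ K, a x ∈ K ∧ ¬ Zg x ∧ ¬ Zb x ∧ a (b x) ≠ b (a x) ∧ a (c x) ≠ c (a x)) →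
      ∃ x ∈ K, (∀ y ∈ K, Relation.EqvGen (fun p q => q = a p ∨ q = b p) x y → y = x ∨ y = a x) ∨
        (∀ y ∈ K, Relation.EqvGen (fun p q => q = a p ∨ q = c p) x y → y = x ∨ y = a x)) :
    (SimpleGraph.fromRel (fun p q => q = a p ∨ q = b p ∨ q = c p)).IsHamiltonian := by
  classical
  let Rl : V → V → Prop := fun p q => q = b p ∨ q = c p ∨
    (q = a p ∧ (Zg p ∨ Zb p ∨ a (b p) = b (a p) ∨ a (c p) = c (a p)))
  refine hamiltonian_of_linked a b c col Zg Zb rk hga hgb hba hbc'
    hg hbz ha hb hc hca hcb hcc hd (fun x y => ?_)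
  let P : V → Prop := fun z => Relation.EqvGen Rl x z
  have hstep : ∀ p q, Rl p q → (P q ↔ P p) := fun p q h =>
    ⟨fun hq => Relation.EqvGen.trans _ _ _ hq
        (Relation.EqvGen.symm _ _ (Relation.EqvGen.rel _ _ h)),
      fun hp => Relation.EqvGen.trans _ _ _ hp (Relation.EqvGen.rel _ _ h)⟩
  have hPb : ∀ z, P (b z) ↔ P z := fun z => hstep _ _ (Or.inl rfl)
  have hPc : ∀ z, P (c z) ↔ P z := fun z => hstep _ _ (Or.inr (Or.inl rfl))
  have hPa : ∀ z, P (a z) ↔ P z := by
    by_contra hall
    push Not at hall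
    let K : Set V := {z | ¬ (P (a z) ↔ P z)}
    have hK : K.Nonempty := by
      obtain ⟨z, hz⟩ := hall
      exact ⟨z, by simp only [K, Set.mem_setOf_eq]; tauto⟩
    obtain ⟨z, hz, hleaf⟩ := hforest K hK (fun z hz => by
      simp only [K, Set.mem_setOf_eq] at hz ⊢
      refine ⟨by rw [ha]; tauto, fun e => hz ?_, fun e => hz ?_, fun e => hz ?_, fun e => hz ?_⟩
      · exact hstep z (a z) (Or.inr (Or.inr ⟨rfl, Or.inl e⟩))
      · exact hstep z (a z) (Or.inr (Or.inr ⟨rfl, Or.inr (Or.inl e)⟩))
      · exact hstep z (a z) (Or.inr (Or.inr ⟨rfl, Or.inr (Or.inr (Or.inl e))⟩))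
      · exact hstep z (a z) (Or.inr (Or.inr ⟨rfl, Or.inr (Or.inr (Or.inr e))⟩)))
    rcases hleaf with h | h
    · exact hz (no_single_exit a b col ha hb hca hcb P hPb z h)
    · exact hz (no_single_exit a c col ha hc hca hcc P hPc z h)
  have hall : ∀ u v, Relation.EqvGen (fun p q => q = a p ∨ q = b p ∨ q = c p) u v →
      (P u ↔ P v) := by
    intro u v h
    induction h with
    | rel p q h =>
      rcases h with rfl | rfl | rfl
      exacts [(hPa p).symm, (hPb p).symm, (hPc p).symm]
    | refl p => exact Iff.rfl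
    | symm p q _ ih => exact ih.symm
    | trans p q r _ _ i1 i2 => exact i1.trans i2
  exact (hall x y (hcon x y)).1 (Relation.EqvGen.refl x)

end Vale.Agent.Results.P039.QuadLinked
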